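import Vale.Agent.P340.M.Main
import Vale.Agent.P340.T.Paradox

/-!
# P340: the Barendregt-Geuvers-Klop conjecture for negatable systems with dependent rules
-/

namespace Vale.Agent.Results.P340.DependentNegatable

open Vale.Agent.P340

universe u

/-- Weak normalization implies strong normalization for every functional specification, with
dependent rules allowed, that is negatable and closed in the sense of `Mem.Closed`. The class
contains the four polymorphic systems of the cube, a predicative hierarchy of universes, and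
U-minus, which is not weakly normalizing. -/
theorem result :
    (∀ (S : Type u) (P : Spec S) (φ e : S → S), Mem.Closed P φ e →
      P.WeaklyNormalizing → P.StronglyNormalizing) ∧
    (∀ dep high : Bool, Mem.Closed (⟨{(false, true)},
      {p | p.2.1 = p.2.2 ∧ (p.2.1 = false ∨ (p.1 = false ∧ dep) ∨ (p.1 = true ∧ high))}⟩ :
        Spec Bool) (fun _ => false) (fun _ => false)) ∧
    Mem.Closed (⟨{p | p.2 = p.1 + 1}, {p | p.2.2 = max p.1 p.2.1}⟩ : Spec ℕ) id id ∧
    Mem.Closed (⟨{(0, 1), (1, 2)}, {(0, 0, 0), (1, 0, 0), (1, 1, 1), (2, 1, 1)}⟩ : Spec (Fin 3))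
      ![0, 1, 1] (fun _ => 1) ∧
      ¬ (⟨{(0, 1), (1, 2)}, {(0, 0, 0), (1, 0, 0), (1, 1, 1), (2, 1, 1)}⟩ :
        Spec (Fin 3)).WeaklyNormalizing := by
  refine ⟨fun S P φ e => Mem.closed_wn_sn, fun dep high => ?_, ?_, ?_, ?_⟩
  · constructor
    · intro s t t' h h'; simp_all
    · intro r s t t' h h'; exact h.1.symm.trans h'.1
    · intro s; cases s <;> simp
    · intro s k h; simp_all
    · intro s; exact ⟨false, by simp⟩
    · intro s; exact ⟨false, by simp⟩
    · intro r s t h; simp only [Set.mem_ofPred_eq] at h ⊢; obtain ⟨rfl, h2⟩ := h; exact ⟨by trivial, h2⟩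
    · intro r s t _; simp
    · intro r s t _; exact ⟨⟨false, by simp⟩, ⟨false, by simp⟩⟩
    · intro r s t _; exact ⟨⟨false, by simp⟩, ⟨false, by simp⟩, ⟨false, by simp⟩⟩
    · intro s k h; exact ⟨⟨false, by simp_all⟩, ⟨false, by simp⟩, ⟨false, by simp⟩⟩
  · constructor
    · intro s t t' h h'; simp_all
    · intro r s t t' h h'; simp_all
    · intro s; exact ⟨s + 1, .inl rfl⟩
    · intro s k _; rfl
    · intro s; exact ⟨s, by simp, by simp⟩
    · intro s; exact ⟨s, by simp⟩
    · intro r s t h; simp_all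
    · intro r s t h; simp_all
    · intro r s t _; exact ⟨⟨max s t, by simp⟩, ⟨max t s, by simp⟩⟩
    · intro r s t _; exact ⟨⟨max r t, by simp⟩, ⟨max r t, by simp⟩, ⟨max s t, by simp⟩⟩
    · intro s k _
      exact ⟨⟨max k s, by simp⟩, ⟨max k s, by simp⟩, ⟨max s k, by simp⟩⟩
  · constructor <;> simp [Fin.forall_fin_succ, Fin.exists_fin_succ]
  · intro hw
    exact Tier.not_wn (⟨{(0, 1), (1, 2)}, {(0, 0, 0), (1, 0, 0), (1, 1, 1), (2, 1, 1)}⟩ :
        Spec (Fin 3)) (fun | 0 => 0 | 1 => 1 | _ => 2)
      (by simp) (by simp) (by simp) (by simp) (by simp) (by simp) hw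

end Vale.Agent.Results.P340.DependentNegatable
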