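import Vale.Agent.P340.Finite

namespace Vale.Agent.Results.P340.FiniteSorts

open Vale.Agent.P340

theorem result :
    (∀ (S : Type) (P : Spec S), P.WeaklyNormalizing → P.StronglyNormalizing) ↔
      ∀ (n : ℕ) (Q : Spec (Fin n)), Q.WeaklyNormalizing → Q.StronglyNormalizing :=
  bgk_iff_finite

end Vale.Agent.Results.P340.FiniteSorts
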