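import Vale.Agent.P340.T.Norm
import Vale.Agent.P340.T.Paradox

/-!
# P340: the Barendregt-Geuvers-Klop conjecture for all nondependent tiered systems
-/

namespace Vale.Agent.Results.P340.TieredNondependent

open Vale.Agent.P340

universe u

/-- For a specification whose axioms raise a grade by exactly one and whose rules `(r, s, t)`
have `t` of the grade of `s`, not above that of `r`, strong normalization holds as soon as no
three consecutive grades carry the four rules of U-minus.  If moreover the grade identifies the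
sorts with a set of natural numbers, every successor pair is an axiom and `t = s` in every rule
(all nondependent tiered systems), then weak normalization implies strong normalization, and
both fail exactly when such a copy of U-minus occurs. -/
theorem result :
    (∀ (S : Type u) (P : Spec S) (ℓ : S → ℕ),
      (∀ s t, (s, t) ∈ P.ax → ℓ t = ℓ s + 1) →
      (∀ r s t, (r, s, t) ∈ P.rule → ℓ t = ℓ s ∧ ℓ s ≤ ℓ r) →
      (∀ j, ¬ Tier.Pattern (Tier.levelRules P ℓ) j) → P.StronglyNormalizing) ∧
    (∀ (S : Type u) (P : Spec S) (ℓ : S → ℕ), Function.Injective ℓ →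
      (∀ s t, (s, t) ∈ P.ax ↔ ℓ t = ℓ s + 1) →
      (∀ r s t, (r, s, t) ∈ P.rule → t = s ∧ ℓ s ≤ ℓ r) →
      (P.WeaklyNormalizing → P.StronglyNormalizing) ∧
      (P.StronglyNormalizing ↔ ∀ j, ¬ Tier.Pattern (Tier.levelRules P ℓ) j)) := by
  refine ⟨fun S P ℓ => Tier.graded_sn P ℓ, fun S P ℓ hinj hax hrule => ?_⟩
  have sn : (∀ j, ¬ Tier.Pattern (Tier.levelRules P ℓ) j) → P.StronglyNormalizing :=
    Tier.graded_sn P ℓ (fun s t h => (hax s t).1 h)
      fun r s t h => ⟨congrArg ℓ (hrule r s t h).1, (hrule r s t h).2⟩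
  have wn : P.WeaklyNormalizing → ∀ j, ¬ Tier.Pattern (Tier.levelRules P ℓ) j := by
    rintro hw j ⟨⟨a, a', t0, h00, ea, ea'⟩, ⟨b, a2, t1, h10, eb, ea2⟩,
      ⟨b', b2, t2, h11, eb', eb2⟩, ⟨c, b3, t3, h21, ec, eb3⟩⟩
    cases (hrule _ _ _ h00).1
    cases (hrule _ _ _ h10).1
    cases (hrule _ _ _ h11).1
    cases (hrule _ _ _ h21).1
    cases hinj (ea'.trans ea.symm)
    cases hinj (ea2.trans ea.symm)
    cases hinj (eb'.trans eb.symm)
    cases hinj (eb2.trans eb.symm)
    cases hinj (eb3.trans eb.symm)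
    exact Tier.not_wn P (fun | 0 => a | 1 => b | _ => c)
      ((hax a b).2 (by omega)) ((hax b c).2 (by omega)) h00 h10 h11 h21 hw
  exact ⟨fun h => sn (wn h), fun h => wn (Tier.sn_weakly h), sn⟩

end Vale.Agent.Results.P340.TieredNondependent
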